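import Vale.Agent.P183K.Lift.Tow
import Vale.Agent.P183M.IF2
import Vale.Agent.P183LT.Ramsey
import Vale.Agent.P183NC.Node

/-!
Assembly of the block `SameChar`.
-/

namespace Vale.Agent.P183AS

open Matrix Subgroup Vale.Agent.P183NK Vale.Agent.P183M Vale.Agent.P183K.Lift

section
variable {p : ℕ} {G : Type} [Group G] {T T' X Y : Subgroup G}

theorem full_mono {C : Cv p T} (h : C.Full X) (hXY : X ≤ Y) : C.Full Y :=
  top_le_iff.1 (h.ge.trans (Subring.closure_mono (Set.image_mono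
    (commutator_mono (comap_mono hXY) (comap_mono hXY)))))

theorem over_eq {C' : Cv p T'} {C : Cv p T} {ψ : C'.E →* C.E} (hO : C'.Over C ψ) {y : C.E}
    {g : C'.E} (h : C.θ y = C'.θ g) : ∃ z, C.θ z = 1 ∧ y = ψ g * z :=
  ⟨(ψ g)⁻¹ * y, by rw [map_mul, map_inv, hO g, h, inv_mul_cancel], by group⟩

theorem ai_of_full {C' : Cv p T'} {C : Cv p T} {ψ : C'.E →* C.E} (hO : C'.Over C ψ)
    (h : C.Full T') : AI (C.D.ρ.comp ψ) := by
  have h1 : (⁅T'.comap C.θ, T'.comap C.θ⁆ : Subgroup C.E) ≤ ψ.range := by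
    refine commutator_le.2 fun a ha b hb => ?_
    obtain ⟨g, hg⟩ : C.θ a ∈ C'.θ.range := C'.range.ge ha
    obtain ⟨k, hk⟩ : C.θ b ∈ C'.θ.range := C'.range.ge hb
    obtain ⟨z, hz, rfl⟩ := over_eq hO hg.symm
    obtain ⟨w, hw, rfl⟩ := over_eq hO hk.symm
    refine ⟨g * k * g⁻¹ * k⁻¹, ?_⟩
    rw [commutatorElement_def, mul_assoc _ z, cv_central C hz, ← cv_central C hw (ψ k)]
    simp only [map_mul, map_inv, _root_.mul_inv_rev, mul_assoc, mul_inv_cancel_left]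
    rw [← mul_assoc w, cv_central C hw]
    simp only [mul_assoc]
    rw [← mul_assoc w, cv_central C hw, mul_assoc, ← mul_assoc w, cv_central C hw, mul_assoc,
      mul_inv_cancel, mul_one]
  have h2 : Algebra.adjoin C.R (SetLike.coe (MonoidHom.mrange (C.D.ρ.comp ψ))) = ⊤ := by
    refine top_le_iff.1 fun M _ => (h.ge.trans (Subring.closure_le.2 ?_) : ⊤ ≤
      (Algebra.adjoin C.R (SetLike.coe (MonoidHom.mrange (C.D.ρ.comp ψ)))).toSubring) trivial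
    rintro _ ⟨y, hy, rfl⟩
    obtain ⟨g, rfl⟩ := h1 hy
    exact Algebra.subset_adjoin ⟨g, rfl⟩
  have h3 := congrArg Subalgebra.toSubmodule h2
  rwa [Algebra.adjoin_eq_span, Submonoid.closure_eq] at h3

theorem end_of_pair {C' : Cv p T'} {C : Cv p T} {ψ : C'.E →* C.E} (hO : C'.Over C ψ)
    (h : EndPair C'.D C.D ψ) : C'.End C := by
  obtain ⟨g, h1, h2⟩ := h
  refine ⟨g, fun u hu y ⟨k, hk⟩ hy => ?_, fun i hi h0 hl y hy => ?_⟩
  · obtain ⟨z, hz, rfl⟩ := over_eq hO hy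
    obtain ⟨k', hk'⟩ := (CD.sb C'.kind.cd).pgroup ⟨u, hu⟩
    have h3 : ψ u ^ p ^ k' = 1 := by
      rw [← map_pow, show u ^ p ^ k' = 1 from congrArg Subtype.val hk', map_one]
    have h4 : z ^ p ^ (k + k') = 1 := by
      have := congrArg (· ^ p ^ k') hk
      rwa [← pow_mul, ← pow_add, (Commute.symm (cv_central C hz (ψ u))).mul_pow, add_comm, pow_add,
        pow_mul, h3, one_pow, one_mul, one_pow, ← pow_add, add_comm] at this
    obtain ⟨a, ha⟩ := (C.ker z).1 hz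
    have h5 := congrFun (congrFun (congrArg C.D.ρ h4) C.D.z) C.D.z
    rw [map_pow, ha, smul_pow, one_pow, map_one, Matrix.smul_apply, one_apply_eq, smul_eq_mul,
      mul_one] at h5
    rw [C.kind.cd.pinj z 1 ⟨_, h4⟩ ⟨0, one_pow _⟩ (by
      rw [ha, CD.eq_one_of_pow C.kind.cd h5, one_smul, map_one]), mul_one]
    exact h1 u hu
  · obtain ⟨z, hz, rfl⟩ := over_eq hO hy
    refine mul_mem (h2 i hi h0 hl) ?_
    obtain ⟨a, ha⟩ := (C.ker z).1 hz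
    obtain ⟨b, hb⟩ := (C.ker z⁻¹).1 (by rw [map_inv, hz, inv_one])
    have h3 := congrFun (congrFun (congrArg C.D.ρ (mul_inv_cancel z)) C.D.z) C.D.z
    rw [map_mul, ha, hb, smul_mul_smul_comm, mul_one, map_one, Matrix.smul_apply, one_apply_eq,
      smul_eq_mul, mul_one] at h3
    exact ⟨Units.mkOfMulEqOne a b h3, by rw [ha, smul_mulVec, one_mulVec]; rfl⟩

end

section
variable {L : Type} [Lattice L] {P : L → L → Prop} {E : L → L → L → L → Prop} {m j r : ℕ}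
  {a b : L}

theorem arm (h : MT (m + 1) P (j + 1) a b) :
    ∃ u z, a ≤ u ∧ u < z ∧ z < b ∧ P u z ∧ MT (m + 1) P j z b := by
  obtain ⟨a', b', c, z, u, h1, -, h3, -, h5⟩ := h
  obtain ⟨-, e2, e3, e4, e5⟩ := h5 0
  exact ⟨u 0, z 0, h1.trans e2, e4.lt, e5.lt.trans_le h3, e3, e5.widen le_rfl h3⟩

theorem pr_base : ∀ {r : ℕ} {u z : L}, PR m j E r P u z → P u z
  | 0, _, _, h => h
  | _ + 1, _, _, h => h.1

/-- The relation between two nodes of the configuration. -/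
def Rel (E : L → L → L → L → Prop) (U N : Nd → L) (i j : Nd) : Prop :=
  U j ≤ N i ∧ N i < N j ∧ E (U i) (N i) (U j) (N j)

theorem conf (h : MT 3 (PR 3 2 E 3 P) 2 a b) : ∃ U N : Nd → L,
    (∀ i, a ≤ U i ∧ U i ≤ N i ∧ N i ≤ b ∧ P (U i) (N i)) ∧ (∀ i, i ≠ .z → Rel E U N i .z) ∧
    Rel E U N .xm .x ∧ (∀ i, N .x ≤ N (.w i) ∧ Rel E U N (.w i) (.y i)) ∧
    Rel E U N .wm (.w 2) ∧ Rel E U N .wm (.y 2) ∧ N (.y 2) ≤ N (.y 0) ⊔ N (.y 1) ∧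
    N (.y 0) ⊓ N (.y 2) ≤ N (.w 2) ∧ N (.y 1) ⊓ N (.y 2) ≤ N (.w 2) := by
  obtain ⟨uz, z, z1, z2, z3, ⟨z4, z5⟩, -⟩ := arm h
  obtain ⟨ux, x, x1, x2, x3, ⟨x4, x5⟩, x6⟩ := arm z5
  obtain ⟨um, xm, m1, m2, m3, m4, -⟩ := arm x5
  replace m4 := pr_base m4
  obtain ⟨a', b', c, y, uy, y1, -, y3, hs, y5⟩ := x6
  choose uw w w1 w2 w3 w4 w5 using fun i => arm (y5 i).2.2.1.2
  obtain ⟨un, wm, n1, n2, n3, n4, -⟩ := arm (w4 2).2
  have y6 : ∀ i, x ≤ uy i := fun i => y1.trans (y5 i).2.1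
  have y7 : ∀ i, y i < z := fun i => (y5 i).2.2.2.2.lt.trans_le y3
  have y8 : ∀ i j, i ≠ j → y i ⊓ y j = a' ∧ y i ⊔ y j = b' := fun i j hij =>
    hs _ _ ((y5 i).2.1.trans_lt (y5 i).2.2.2.1.lt) (y5 i).2.2.2.2.lt
      ((y5 j).2.1.trans_lt (y5 j).2.2.2.1.lt) (y5 j).2.2.2.2.lt
      (by rw [(y5 i).1, (y5 j).1]; exact hij)
  have y9 : a' ≤ w 2 := (y5 2).2.1.trans ((w1 2).trans (w2 2).le)
  have b1 := x1.trans x2.le
  have b2 := fun i => b1.trans (y6 i)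
  have b3 := fun i => (b2 i).trans (w1 i)
  have b4 := fun i => (w3 i).trans (y7 i)
  refine ⟨fun i => i.casesOn uz ux um uy uw un, fun i => i.casesOn z x xm y w wm, ?_, ?_,
    ⟨m1.trans m2.le, m3, m4.2⟩, fun i => ⟨(y6 i).trans ((w1 i).trans (w2 i).le),
      (w1 i).trans (w2 i).le, w3 i, (w4 i).1.2⟩, ⟨n1.trans n2.le, n3, n4.2⟩,
    ⟨(w1 2).trans (n1.trans n2.le), n3.trans (w3 2), n4.1.2⟩,
    (y5 2).2.2.2.2.lt.le.trans (y8 0 1 (by decide)).2.ge,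
    (y8 0 2 (by decide)).1.le.trans y9, (y8 1 2 (by decide)).1.le.trans y9⟩
  · rintro (_ | _ | _ | i | i | _)
    exacts [⟨z1, z2.le, z3.le, z4⟩, ⟨z1.trans x1, x2.le, (x3.trans z3).le, x4.1⟩,
      ⟨z1.trans (x1.trans m1), m2.le, (m3.trans (x3.trans z3)).le, m4.1.1⟩,
      ⟨z1.trans (b2 i), (y5 i).2.2.2.1.lt.le, ((y7 i).trans z3).le, (y5 i).2.2.1.1.1⟩,
      ⟨z1.trans (b3 i), (w2 i).le, ((b4 i).trans z3).le, (w4 i).1.1.1⟩,
      ⟨z1.trans ((b3 2).trans n1), n2.le, (n3.trans ((b4 2).trans z3)).le, n4.1.1.1⟩]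
  · rintro (_ | _ | _ | i | i | _) hi
    exacts [absurd rfl hi, ⟨b1, x3, x4.2⟩, ⟨x1.trans (m1.trans m2.le), m3.trans x3, m4.1.2⟩,
      ⟨(b2 i).trans (y5 i).2.2.2.1.lt.le, y7 i, (y5 i).2.2.1.1.2⟩,
      ⟨(b3 i).trans (w2 i).le, b4 i, (w4 i).1.1.2⟩,
      ⟨(b3 2).trans (n1.trans n2.le), n3.trans (b4 2), n4.1.1.2⟩]

end

/-- A generic pair of nodes, in coordinates. -/
def Q (p m₀ : ℕ) (t : Prop × Prop × Prop) {G : Type} [Group G] (H u z : Subgroup G) : Prop :=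
  ∃ C : Cv p (EE H z), m₀ ≤ C.D.m ∧ C.Ty t ∧ C.Full (EE H u) ∧ C.Lifts

theorem asm : ASM := by
  intro hBR hT ⟨m₁, l, hS⟩ hR ⟨d₁, hL⟩ ⟨m₂, hC⟩
  obtain ⟨d₂, hB⟩ := hBR (5 + m₁ + m₂)
  obtain ⟨M, K, hM, hR⟩ := hR 3 2 3 l (by decide)
  let τ := (Fintype.equivFin (Prop × Prop × Prop)).symm
  refine ⟨d₁ + d₂, Fintype.card (Prop × Prop × Prop) * M + 1,
    Fintype.card (Prop × Prop × Prop) * K + 1, Nat.succ_pos _,
    fun p G _ _ H T x b hreg h => ?_⟩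
  obtain ⟨_, _, -, -, -, ⟨-, M₀, -, hp, -⟩, -⟩ := arm h
  have : Fact p.Prime := hp ▸ M₀.hp
  obtain ⟨F, h1⟩ := P183LT.ramsey_aux hM (fun F => Q p (5 + m₁ + m₂) (τ F) H) _ (fun _ => K)
    (by simp) x b (h.mono fun u z ⟨_, M, a1, a2, a3⟩ => by
      subst a2
      obtain ⟨C, a4, a5, a6⟩ := hB G _ M (by omega)
      exact ⟨τ.symm (C.D.lty, C.D.quad, ∃ r, C.D.σ r ≠ r), C, a4, by
        rw [Equiv.apply_symm_apply]; exact ⟨Iff.rfl, Iff.rfl, Iff.rfl⟩, a5 _ a3,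
        a6 (hL G _ M (by omega))⟩)
  have mono : ∀ u v, x ≤ u → u ≤ v → v ≤ b → EE H u ≤ EE H v := fun u v a1 a2 a3 =>
    EE_mono (hreg.1.nomod a1 (a2.trans a3)) (hreg.1.nomod (a1.trans a2) a3) a2
  rcases hR _ _ (fun u' z' u z => ∀ (h' : Q p (5 + m₁ + m₂) (τ F) H u' z')
    (h : Q p (5 + m₁ + m₂) (τ F) H u z), h'.choose.End h.choose) x b h1 with h2 | ⟨u, z, h2, h3⟩
  · obtain ⟨U, N, a1, a2, a3, a4, a5, a6, a7, a8, a9⟩ := conf h2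
    have hQ := fun i => (a1 i).2.2.2.choose_spec
    obtain ⟨C, c1, c2, c3⟩ := hT p G Nd _ (fun i => (a1 i).2.2.2.choose)
      fun i => le_trans (by omega) (hQ i).1
    have key : ∀ {i j}, Rel (fun u' z' u z => ∀ (h' : Q p (5 + m₁ + m₂) (τ F) H u' z')
        (h : Q p (5 + m₁ + m₂) (τ F) H u z), h'.choose.End h.choose) U N i j →
        N i < N j ∧ Low (C i) (C j) := fun {i j} hij => ⟨hij.2.1, (c3 i j).2 (hij.2.2 _ _),
      full_mono ((c2 j).2.2.1 _ (hQ j).2.2.1) (mono _ _ (a1 j).1 hij.1 (a1 i).2.2.1)⟩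
    exact hC p G H T x b hreg N C (τ F) (fun i => ⟨(a1 i).1.trans (a1 i).2.1, (a1 i).2.2.1⟩)
      (fun i => ⟨(c2 i).1 ▸ le_trans (by omega) (hQ i).1, (c2 i).2.1 _ (hQ i).2.1,
        (c2 i).2.2.2 (hQ i).2.2.2⟩) c1 (fun i hi => key (a2 i hi)) (key a3)
      (fun i => ⟨(a4 i).1, key (a4 i).2⟩) ⟨(key a5).1, (key a5).2, (key a6).2⟩ a7 a8 a9
  · have hQ := fun i => (h2 i).2.2.2.choose_spec
    obtain ⟨C, c1, c2, c3⟩ := hT p G _ _ (fun i => (h2 i).2.2.2.choose)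
      fun i => le_trans (by omega) (hQ i).1
    choose ψ hψ using fun i j (hij : i < j) => c1 i j (mono _ _ ((h2 i).1.trans (h2 i).2.1.le)
      (h3 i j hij).2.1.le (h2 j).2.2.1)
    obtain ⟨i, j, hij, h4⟩ := hS p G _ C ψ (fun i => (c2 i).1 ▸ le_trans (by omega) (hQ i).1)
      (fun i j => ((c2 i).2.1 _ (hQ i).2.1).1.trans ((c2 j).2.1 _ (hQ j).2.1).1.symm) hψ
      fun i j hij => ai_of_full (hψ i j hij) (full_mono ((c2 j).2.2.1 _ (hQ j).2.2.1)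
        (mono _ _ (h2 j).1 ((h3 i j hij).1.trans (h2 i).2.1.le) (h2 i).2.2.1))
    exact (h3 i j hij).2.2 fun _ _ => (c3 i j).1 (end_of_pair (hψ i j hij) h4)

end Vale.Agent.P183AS
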